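import Vale.Agent.P097.H690.LD.RowC
import Vale.Agent.P097.H275.G.Defs

/-!
# P097 / case [c], row A5.GROWTH: **Row C** (climb) in the strip

Port of 690's proof of `CD.RowC` (`H690/LD/{RowC1,RowC2,RowC}.lean`): the curve is only needed in the
ball of the place.  `Bo` = local facts on an open set.
-/

set_option linter.all false

open Complex Metric Filter Topology Set

namespace Vale.Agent.P097.H83.G

open Vale.Agent.P097 Vale.Agent.P097.SC Vale.Agent.P097.H133.Tm Vale.Agent.P097.CD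
open Vale.Agent.P097.H690.LD

/-- local facts on the curve -/
structure Bo (Λ : ℝ) (F q Q : ℂ → ℂ) (U : Set ℂ) : Prop where
  Λ0 : 0 < Λ
  op : IsOpen U
  dF : DifferentiableOn ℂ F U
  dq : DifferentiableOn ℂ q U
  dQ : DifferentiableOn ℂ Q U
  wr : ∀ z ∈ U, Wr F q z = (Λ : ℂ) ^ 3
  gQ : ∀ z ∈ U, deriv (deriv (deriv F)) z = Q z * deriv F z

variable {Λ : ℝ} {F q Q : ℂ → ℂ} {U : Set ℂ}

theorem Bo.aF (h : Bo Λ F q Q U) {x : ℂ} (hx : x ∈ U) : AnalyticAt ℂ F x :=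
  h.dF.analyticAt (h.op.mem_nhds hx)

theorem Bo.aq (h : Bo Λ F q Q U) {x : ℂ} (hx : x ∈ U) : AnalyticAt ℂ q x :=
  h.dq.analyticAt (h.op.mem_nhds hx)

theorem Bo.aQ (h : Bo Λ F q Q U) {x : ℂ} (hx : x ∈ U) : AnalyticAt ℂ Q x :=
  h.dQ.analyticAt (h.op.mem_nhds hx)

theorem Bo.cne (h : Bo Λ F q Q U) : ((Λ : ℂ) ^ 3) ≠ 0 :=
  pow_ne_zero 3 (by exact_mod_cast h.Λ0.ne')

theorem Bo.crv (h : Bo Λ F q Q U) {x : ℂ} (hx : x ∈ U) : Crv F q ((Λ : ℂ) ^ 3) x :=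
  ⟨h.aF hx, h.aq hx, by filter_upwards [h.op.mem_nhds hx] with y hy using h.wr y hy⟩

theorem Bo.gQe (h : Bo Λ F q Q U) {x : ℂ} (hx : x ∈ U) :
    ∀ᶠ z in 𝓝 x, deriv (deriv (deriv F)) z = Q z * deriv F z := by
  filter_upwards [h.op.mem_nhds hx] with y hy using h.gQ y hy

theorem Bo.mono (h : Bo Λ F q Q U) {V : Set ℂ} (hV : V ⊆ U) (oV : IsOpen V) : Bo Λ F q Q V :=
  ⟨h.Λ0, oV, h.dF.mono hV, h.dq.mono hV, h.dQ.mono hV, fun z hz => h.wr z (hV hz),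
    fun z hz => h.gQ z (hV hz)⟩

theorem hasDerivAt_Gl (h : Bo Λ F q Q U) (a p : ℂ) {x : ℂ} (hx : x ∈ U) :
    HasDerivAt (Gl F q a p) (Gl1 F q a p x) x := by
  have hΦ := h.aF hx
  have hq := h.aq hx
  have h1 := hΦ.differentiableAt.hasDerivAt
  have h2 := hΦ.deriv.differentiableAt.hasDerivAt
  have h3 := hq.differentiableAt.hasDerivAt
  have h4 := hq.deriv.differentiableAt.hasDerivAt
  have hA := h1.const_sub a
  have hc := (Complex.hasDerivAt_cos (a - F x)).comp x hA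
  have hs := (Complex.hasDerivAt_sin (a - F x)).comp x hA
  have h5 := (h2.mul ((h3.mul hc).sub_const p)).add (h4.mul hs)
  refine h5.congr_deriv ?_
  simp only [Function.comp, Gl1, Pi.mul_apply]
  ring

theorem hasDerivAt_Gl1 (h : Bo Λ F q Q U) (a p : ℂ) {x : ℂ} (hx : x ∈ U) :
    HasDerivAt (Gl1 F q a p) (Q x * Gl F q a p x - (Λ : ℂ) ^ 3 * Complex.cos (a - F x)) x := by
  have hC := h.crv hx
  have h1 := hC.aΦ.differentiableAt.hasDerivAt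
  have h2 := hC.aΦ.deriv.differentiableAt.hasDerivAt
  have h22 := hC.aΦ.deriv.deriv.differentiableAt.hasDerivAt
  have h3 := hC.aq.differentiableAt.hasDerivAt
  have h4 := hC.aq.deriv.deriv.differentiableAt.hasDerivAt
  have hA := h1.const_sub a
  have hcs := (Complex.hasDerivAt_cos (a - F x)).comp x hA
  have hs := (Complex.hasDerivAt_sin (a - F x)).comp x hA
  have h5 := (h22.mul ((h3.mul hcs).sub_const p)).add
    ((h4.add (h3.mul (h2.pow 2))).mul hs)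
  refine h5.congr_deriv ?_
  have e1 := h.gQ x hx
  have e2 := third_eq hC h.cne (h.aQ hx) (h.gQe hx)
  have hw := h.wr x hx
  rw [Wr] at hw
  simp only [Function.comp, Gl, Pi.mul_apply, Pi.add_apply, Pi.pow_apply]
  rw [e1]
  push_cast
  norm_num
  linear_combination (Complex.sin (a - F x)) * e2 -
    (Complex.cos (a - F x)) * hw

/-- `F' Gl1 = c sin` at an incident vertex -/
theorem Gl1_sin (h : Bo Λ F q Q U) {a p x : ℂ} (hx : x ∈ U) (hG : Gl F q a p x = 0) :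
    deriv F x * Gl1 F q a p x = (Λ : ℂ) ^ 3 * Complex.sin (a - F x) := by
  have hw := h.wr x hx
  rw [Wr] at hw
  rw [Gl] at hG
  rw [Gl1]
  linear_combination deriv (deriv F) x * hG + Complex.sin (a - F x) * hw

/-- **the line through two vertices** -/
theorem two_pt {V : Set ℂ} (h : Bo Λ F q Q V) (hV : Convex ℝ V) {A₀ M : ℝ}
    (bA : ∀ x ∈ V, ‖deriv F x‖ ≤ A₀) (bM : ∀ x ∈ V, ‖Q x‖ ≤ M) {a p x₀ x₁ : ℂ} (h0 : x₀ ∈ V)
    (h1 : x₁ ∈ V) (g0 : Gl F q a p x₀ = 0) (g1 : Gl F q a p x₁ = 0)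
    (hM : 4 * (M * ‖x₁ - x₀‖ ^ 2) ≤ 1) (hA : A₀ * ‖x₁ - x₀‖ ≤ 1 / 2) (hne : x₁ ≠ x₀) :
    ‖Complex.sin (a - F x₀)‖ ≤ 2 * (A₀ * ‖x₁ - x₀‖) *
      (2 * ‖Complex.cos (a - F x₀)‖ + ‖Complex.sin (a - F x₀)‖) ∧
    ∀ ν : ℝ, (∀ y : ℂ, ‖y‖ ≤ A₀ * ‖x₁ - x₀‖ → ‖Complex.cos (a - F x₀ - y) - 1‖ ≤ ν) → ν ≤ 1 →
      ‖Gl1 F q a p x₀ / (Λ : ℂ) ^ 3 - (x₁ - x₀) / 2‖ ≤
        ‖x₁ - x₀‖ * (8 * (M * ‖x₁ - x₀‖ ^ 2) + ν) := by
  have hc := h.cne
  set c : ℂ := (Λ : ℂ) ^ 3 with hcd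
  have hc0 : 0 < ‖c‖ := norm_pos_iff.2 hc
  set d : ℂ := x₁ - x₀ with hd
  have hd0 : 0 < ‖d‖ := norm_pos_iff.2 (sub_ne_zero.2 hne)
  have hdn : d ≠ 0 := sub_ne_zero.2 hne
  have hM0 : 0 ≤ M := (norm_nonneg _).trans (bM _ h0)
  have hA0 : 0 ≤ A₀ := (norm_nonneg _).trans (bA _ h0)
  have hmem : ∀ s ∈ Icc (0 : ℝ) 1, x₀ + s * d ∈ V := by
    intro s hs
    have := hV h0 h1 (a := 1 - s) (b := s) (by linarith [hs.2]) hs.1 (by ring)
    have e : (1 - s) • x₀ + s • x₁ = x₀ + s * d := by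
      rw [hd, Complex.real_smul, Complex.real_smul]; push_cast; ring
    rwa [e] at this
  have hlin : ∀ s : ℝ, HasDerivAt (fun s : ℝ => x₀ + (s : ℂ) * d) d s := by
    intro s
    simpa using ((Complex.ofRealCLM.hasDerivAt (x := s)).mul_const d).const_add x₀
  -- variation of `F`
  have hF : ∀ s ∈ Icc (0 : ℝ) 1, ‖F (x₀ + s * d) - F x₀‖ ≤ A₀ * ‖d‖ := by
    intro s hs
    have h3 := hV.norm_image_sub_le_of_norm_hasDerivWithin_le (f := F) (f' := deriv F) (C := A₀)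
      (x := x₀) (y := x₀ + s * d) (fun y hy => (h.aF hy).differentiableAt.hasDerivAt.hasDerivWithinAt) bA h0
      (hmem s hs)
    refine h3.trans ?_
    have e : x₀ + s * d - x₀ = s * d := by ring
    rw [e, norm_mul, Complex.norm_real, Real.norm_eq_abs, abs_of_nonneg hs.1]
    have : s * ‖d‖ ≤ 1 * ‖d‖ := mul_le_mul_of_nonneg_right hs.2 hd0.le
    calc A₀ * (s * ‖d‖) ≤ A₀ * (1 * ‖d‖) := mul_le_mul_of_nonneg_left this hA0
      _ = _ := by ring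
  set N : ℝ := 2 * ‖Complex.cos (a - F x₀)‖ + ‖Complex.sin (a - F x₀)‖ with hN
  have hN0 : 0 ≤ N := by positivity
  have hcosN : ∀ s ∈ Icc (0 : ℝ) 1, ‖Complex.cos (a - F (x₀ + s * d))‖ ≤ N := by
    intro s hs
    have h4 := hF s hs
    set y := F (x₀ + s * d) - F x₀ with hy
    have hy2 : ‖y‖ ≤ 1 / 2 := h4.trans hA
    have e : a - F (x₀ + s * d) = (a - F x₀) - y := by rw [hy]; ring
    rw [e, Complex.cos_sub]
    refine (norm_add_le _ _).trans ?_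
    rw [norm_mul, norm_mul]
    have c1 := norm_cos_le hy2
    have c2 : ‖Complex.sin y‖ ≤ 1 := (norm_sin_le hy2).trans (by linarith)
    have c3 : ‖Complex.cos (a - F x₀)‖ * ‖Complex.cos y‖ ≤ ‖Complex.cos (a - F x₀)‖ * 2 :=
      mul_le_mul_of_nonneg_left c1 (norm_nonneg _)
    have c4 : ‖Complex.sin (a - F x₀)‖ * ‖Complex.sin y‖ ≤ ‖Complex.sin (a - F x₀)‖ * 1 :=
      mul_le_mul_of_nonneg_left c2 (norm_nonneg _)
    rw [hN]; linarith
  set f : ℝ → ℂ := fun s => Gl F q a p (x₀ + s * d) with hf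
  set f1 : ℝ → ℂ := fun s => Gl1 F q a p (x₀ + s * d) * d with hf1
  set f2 : ℝ → ℂ := fun s => (Q (x₀ + s * d) * Gl F q a p (x₀ + s * d) -
    c * Complex.cos (a - F (x₀ + s * d))) * d * d with hf2
  have d1 : ∀ s ∈ Icc (0 : ℝ) 1, HasDerivAt f (f1 s) s := fun s hs =>
    (hasDerivAt_Gl h a p (hmem s hs)).comp_of_eq s (hlin s) rfl
  have d2 : ∀ s ∈ Icc (0 : ℝ) 1, HasDerivAt f1 (f2 s) s := fun s hs =>
    ((hasDerivAt_Gl1 h a p (hmem s hs)).comp_of_eq s (hlin s) rfl).mul_const d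
  have f0 : f 0 = 0 := by simp only [hf]; simpa using g0
  have fe : f 1 = 0 := by
    simp only [hf]
    have e : x₀ + ((1 : ℝ) : ℂ) * d = x₁ := by rw [hd]; push_cast; ring
    rw [e]; exact g1
  -- sup of `f`
  have hcont : ContinuousOn (fun s => ‖f s‖) (Icc (0 : ℝ) 1) := fun s hs =>
    (d1 s hs).continuousAt.continuousWithinAt.norm
  obtain ⟨s₀, hs₀, hmax⟩ := isCompact_Icc.exists_isMaxOn ⟨0, by simp⟩ hcont
  set S : ℝ := ‖f s₀‖ with hS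
  have hS0 : 0 ≤ S := norm_nonneg _
  have hle : ∀ s ∈ Icc (0 : ℝ) 1, ‖f s‖ ≤ S := fun s hs => hmax hs
  have hf2b : ∀ s ∈ Icc (0 : ℝ) 1, ‖f2 s‖ ≤ (M * S + ‖c‖ * N) * ‖d‖ ^ 2 := by
    intro s hs
    rw [hf2]
    simp only
    rw [norm_mul, norm_mul]
    have b1 : ‖Q (x₀ + s * d) * Gl F q a p (x₀ + s * d) -
        c * Complex.cos (a - F (x₀ + s * d))‖ ≤ M * S + ‖c‖ * N := by
      refine (norm_sub_le _ _).trans ?_
      rw [norm_mul, norm_mul]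
      exact add_le_add (mul_le_mul (bM _ (hmem s hs)) (hle s hs) (norm_nonneg _) hM0)
        (mul_le_mul_of_nonneg_left (hcosN s hs) hc0.le)
    calc _ ≤ (M * S + ‖c‖ * N) * ‖d‖ * ‖d‖ := by gcongr
      _ = _ := by ring
  have hSb : S ≤ 4 * (‖c‖ * N * ‖d‖ ^ 2) := by
    have h5 := bvp_sup d1 d2 hf2b f0 fe hs₀
    have h6 : 2 * ((M * S + ‖c‖ * N) * ‖d‖ ^ 2) = 2 * (M * ‖d‖ ^ 2) * S +
      2 * (‖c‖ * N * ‖d‖ ^ 2) := by ring
    rw [h6] at h5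
    have h7 : 2 * (M * ‖d‖ ^ 2) * S ≤ 1 / 2 * S :=
      mul_le_mul_of_nonneg_right (by linarith) hS0
    linarith
  have hf10 : f1 0 = Gl1 F q a p x₀ * d := by
    simp only [hf1]; simp
  refine ⟨?_, ?_⟩
  · have h8 := bvp (m := 0) d1 d2 (fun s hs => by simpa using hf2b s hs) f0 fe
    rw [zero_div, add_zero, hf10, norm_mul] at h8
    have h9 : (M * S + ‖c‖ * N) * ‖d‖ ^ 2 ≤ 2 * (‖c‖ * N) * ‖d‖ * ‖d‖ := by
      have h10 : M * S ≤ ‖c‖ * N := by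
        calc M * S ≤ M * (4 * (‖c‖ * N * ‖d‖ ^ 2)) := mul_le_mul_of_nonneg_left hSb hM0
          _ = (4 * (M * ‖d‖ ^ 2)) * (‖c‖ * N) := by ring
          _ ≤ 1 * (‖c‖ * N) := mul_le_mul_of_nonneg_right hM (by positivity)
          _ = _ := one_mul _
      calc (M * S + ‖c‖ * N) * ‖d‖ ^ 2 ≤ (‖c‖ * N + ‖c‖ * N) * ‖d‖ ^ 2 := by gcongr
        _ = _ := by ring
    have h11 : ‖Gl1 F q a p x₀‖ ≤ 2 * (‖c‖ * N) * ‖d‖ :=
      le_of_mul_le_mul_right (h8.trans h9) hd0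
    have h12 : ‖c‖ * ‖Complex.sin (a - F x₀)‖ ≤ ‖c‖ * (2 * (A₀ * ‖d‖) * N) := by
      rw [← norm_mul, ← Gl1_sin h h0 g0, norm_mul]
      calc ‖deriv F x₀‖ * ‖Gl1 F q a p x₀‖ ≤ A₀ * (2 * (‖c‖ * N) * ‖d‖) :=
            mul_le_mul (bA _ h0) h11 (norm_nonneg _) hA0
        _ = _ := by ring
    exact le_of_mul_le_mul_left h12 hc0
  · intro ν hν hν1
    have hν0 : 0 ≤ ν := (norm_nonneg _).trans (hν 0 (by simp; positivity))
    have hcos1 : ∀ s ∈ Icc (0 : ℝ) 1, ‖Complex.cos (a - F (x₀ + s * d)) - 1‖ ≤ ν := by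
      intro s hs
      have := hν (F (x₀ + s * d) - F x₀) (hF s hs)
      have e : a - F x₀ - (F (x₀ + s * d) - F x₀) = a - F (x₀ + s * d) := by ring
      rwa [e] at this
    have hcos2 : ∀ s ∈ Icc (0 : ℝ) 1, ‖Complex.cos (a - F (x₀ + s * d))‖ ≤ 2 := by
      intro s hs
      have h13 := hcos1 s hs
      have : ‖Complex.cos (a - F (x₀ + s * d))‖ ≤ ‖Complex.cos (a - F (x₀ + s * d)) - 1‖ + 1 := by
        simpa using norm_add_le (Complex.cos (a - F (x₀ + s * d)) - 1) 1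
      linarith
    -- better sup bound
    have hf2b' : ∀ s ∈ Icc (0 : ℝ) 1, ‖f2 s‖ ≤ (M * S + ‖c‖ * 2) * ‖d‖ ^ 2 := by
      intro s hs
      rw [hf2]
      simp only
      rw [norm_mul, norm_mul]
      have b1 : ‖Q (x₀ + s * d) * Gl F q a p (x₀ + s * d) -
          c * Complex.cos (a - F (x₀ + s * d))‖ ≤ M * S + ‖c‖ * 2 := by
        refine (norm_sub_le _ _).trans ?_
        rw [norm_mul, norm_mul]
        exact add_le_add (mul_le_mul (bM _ (hmem s hs)) (hle s hs) (norm_nonneg _) hM0)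
          (mul_le_mul_of_nonneg_left (hcos2 s hs) hc0.le)
      calc _ ≤ (M * S + ‖c‖ * 2) * ‖d‖ * ‖d‖ := by gcongr
        _ = _ := by ring
    have hSb' : S ≤ 8 * (‖c‖ * ‖d‖ ^ 2) := by
      have h5 := bvp_sup d1 d2 hf2b' f0 fe hs₀
      have h6 : 2 * ((M * S + ‖c‖ * 2) * ‖d‖ ^ 2) = 2 * (M * ‖d‖ ^ 2) * S +
        4 * (‖c‖ * ‖d‖ ^ 2) := by ring
      rw [h6] at h5
      have h7 : 2 * (M * ‖d‖ ^ 2) * S ≤ 1 / 2 * S :=
        mul_le_mul_of_nonneg_right (by linarith) hS0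
      linarith
    have h14 := bvp (m := -(c * d * d)) (K := (8 * (M * ‖d‖ ^ 2) + ν) * (‖c‖ * ‖d‖ ^ 2)) d1 d2
      (fun s hs => by
        have e : f2 s - -(c * d * d) = (Q (x₀ + s * d) * Gl F q a p (x₀ + s * d) -
            c * (Complex.cos (a - F (x₀ + s * d)) - 1)) * d * d := by
          simp only [hf2]; ring
        rw [e, norm_mul, norm_mul]
        have b1 : ‖Q (x₀ + s * d) * Gl F q a p (x₀ + s * d) -
            c * (Complex.cos (a - F (x₀ + s * d)) - 1)‖ ≤ M * (8 * (‖c‖ * ‖d‖ ^ 2)) + ‖c‖ * ν := by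
          refine (norm_sub_le _ _).trans ?_
          rw [norm_mul, norm_mul]
          exact add_le_add (mul_le_mul (bM _ (hmem s hs)) ((hle s hs).trans hSb')
            (norm_nonneg _) hM0) (mul_le_mul_of_nonneg_left (hcos1 s hs) hc0.le)
        calc _ ≤ (M * (8 * (‖c‖ * ‖d‖ ^ 2)) + ‖c‖ * ν) * ‖d‖ * ‖d‖ := by gcongr
          _ = _ := by ring) f0 fe
    rw [hf10] at h14
    have e : Gl1 F q a p x₀ * d + -(c * d * d) / 2 = (Gl1 F q a p x₀ / c - d / 2) * (c * d) := by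
      field_simp
      ring
    rw [e, norm_mul, norm_mul] at h14
    have h15 : (8 * (M * ‖d‖ ^ 2) + ν) * (‖c‖ * ‖d‖ ^ 2) =
        (‖d‖ * (8 * (M * ‖d‖ ^ 2) + ν)) * (‖c‖ * ‖d‖) := by ring
    rw [h15] at h14
    exact le_of_mul_le_mul_right h14 (by positivity)

variable {V : Set ℂ} {A₀ M ε r : ℝ} {L : Set (ℂ × ℂ)} {A P θ : ℂ × ℂ → ℂ}

/-- two consecutive vertices on the line `t + w / 2` -/
theorem two_vert (hB : Bo Λ F q Q V) (H : Lw F q Q V A₀ M ε r L A P θ) {u : ℂ × ℂ}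
    (hu : Mg L r u) (h0 : u.2 ≠ 0) :
    Gl F q (A (u.1 + u.2 / 2, u.2)) (P (u.1 + u.2 / 2, u.2)) (θ u) = 0 ∧
    Gl F q (A (u.1 + u.2 / 2, u.2)) (P (u.1 + u.2 / 2, u.2)) (θ (u.1 + u.2, u.2)) = 0 ∧
    ‖θ (u.1 + u.2, u.2) - θ u - u.2‖ ≤ 1 / 1000 * ‖u.2‖ ∧
    A (u.1 + u.2 / 2, u.2) - F (θ u) = dl A u ∧
    ‖dl A u‖ = ‖A (u.1 + u.2 / 2, u.2) - F (θ u)‖ ∧
    θ (u.1 + u.2, u.2) ≠ θ u ∧ ‖θ (u.1 + u.2, u.2) - θ u‖ ≤ 1001 / 1000 * ‖u.2‖ ∧
    ‖Complex.sin (dl A u)‖ ≤ 10 * (A₀ * (20 * r)) ∧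
    ∀ ν : ℝ, (∀ y : ℂ, ‖y‖ ≤ A₀ * (20 * r) → ‖Complex.cos (dl A u - y) - 1‖ ≤ ν) → ν ≤ 1 →
      ‖Gl1 F q (A (u.1 + u.2 / 2, u.2)) (P (u.1 + u.2 / 2, u.2)) (θ u) / (Λ : ℂ) ^ 3 -
        (θ (u.1 + u.2, u.2) - θ u) / 2‖ ≤
        ‖θ (u.1 + u.2, u.2) - θ u‖ * (1 / 1000 + ν) := by
  obtain ⟨t, w⟩ := u
  simp only at h0 ⊢
  obtain ⟨-, l1, l2, l3⟩ := H.law t w hu.p hu.m
  have hm1 : (t + w - w / 2, w) ∈ L := by
    have e : t + w - w / 2 = t + w / 2 := by ring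
    rw [e]; exact hu.p
  obtain ⟨-, k1, k2, k3⟩ := H.law (t + w) w hu.th hm1
  have e1 : t + w - w / 2 = t + w / 2 := by ring
  have hs1 : (t + w / 2 + w / 2, w) ∈ L := by
    have e : t + w / 2 + w / 2 = t + w := by ring
    rw [e]; exact hu.one
  have hs2 : (t + w / 2 - w / 2, w) ∈ L := by
    have e : t + w / 2 - w / 2 = t := by ring
    rw [e]; exact hu.z
  obtain ⟨s1, -, -, -⟩ := H.law (t + w / 2) w hs1 hs2
  have e2 : t + w / 2 + w / 2 = t + w := by ring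
  have e3 : t + w / 2 - w / 2 = t := by ring
  rw [e2, e3] at s1
  have g0 := (Gl_zero l1 l2 l3).1
  have g1 := (Gl_zero k1 k2 k3).2
  rw [e1] at g1
  have hw0 : 0 < ‖w‖ := norm_pos_iff.2 h0
  have s2 : ‖θ (t + w, w) - θ (t, w) - w‖ ≤ 1 / 1000 * ‖w‖ :=
    s1.trans (mul_le_mul_of_nonneg_right H.ε1 hw0.le)
  have hd : A (t + w / 2, w) - F (θ (t, w)) = dl A (t, w) := by
    rw [dl]
    simp only
    linear_combination (1 / 2 : ℂ) * l1
  have hne : θ (t + w, w) ≠ θ (t, w) := by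
    intro h
    rw [h, sub_self, zero_sub, norm_neg] at s2
    linarith
  have hle : ‖θ (t + w, w) - θ (t, w)‖ ≤ 1001 / 1000 * ‖w‖ := by
    have : ‖θ (t + w, w) - θ (t, w)‖ ≤ ‖θ (t + w, w) - θ (t, w) - w‖ + ‖w‖ := by
      simpa using norm_add_le (θ (t + w, w) - θ (t, w) - w) w
    linarith
  have hr : ‖w‖ ≤ 10 * r := hu.1
  have hle2 : ‖θ (t + w, w) - θ (t, w)‖ ≤ 20 * r := by linarith
  have hn0 := norm_nonneg (θ (t + w, w) - θ (t, w))
  have hA0 := H.A0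
  have hM0 := H.M0
  have hr0 : 0 ≤ r := by linarith
  have b1 : A₀ * ‖θ (t + w, w) - θ (t, w)‖ ≤ A₀ * (20 * r) := by gcongr
  have b2 : M * ‖θ (t + w, w) - θ (t, w)‖ ^ 2 ≤ M * (20 * r) ^ 2 := by gcongr
  have hμ := H.μ1
  have hM1 := H.M1
  have hTP := two_pt hB H.cV H.bA H.bM (H.mV _ hu.z) (H.mV _ hu.one) g0 g1
    (by linarith) (by linarith) hne
  rw [hd] at hTP
  obtain ⟨T1, T2⟩ := hTP
  refine ⟨g0, g1, s2, hd, by rw [hd], hne, hle, ?_, ?_⟩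
  · have h5 := sin_small (δ := dl A (t, w)) (μ := A₀ * ‖θ (t + w, w) - θ (t, w)‖)
      (by positivity) (by linarith) T1
    linarith
  · intro ν hν hν1
    refine (T2 ν (fun y hy => hν y (hy.trans b1)) hν1).trans ?_
    refine mul_le_mul_of_nonneg_left ?_ hn0
    linarith

/-- the angle between two consecutive lines is small -/
theorem dl_small (hB : Bo Λ F q Q V) (H : Lw F q Q V A₀ M ε r L A P θ) {u : ℂ × ℂ}
    (hu : Mg L r u) : ‖dl A u‖ ≤ 20 * (A₀ * (20 * r)) := by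
  have hμ := H.μ1
  have hA0 := H.A0
  have hr0 : 0 ≤ r := by have := hu.1; linarith [norm_nonneg u.2]
  have h := small_path (f := fun s : ℝ => dl A (u.1, s * u.2)) (k := 10 * (A₀ * (20 * r))) ?_ ?_
    (by linarith) ?_
  · have e : dl A (u.1, ((1 : ℝ) : ℂ) * u.2) = dl A u := by
      rw [Complex.ofReal_one, one_mul]
    simp only [e] at h
    linarith
  · intro s hs
    have hm := hu.scale hs
    have h1 : ContinuousAt (fun s : ℝ => A (u.1 + s * u.2 / 2, s * u.2)) s := by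
      have h2 : ContinuousAt A (u.1 + s * u.2 / 2, s * u.2) := (H.aA _ hm.p).continuousAt
      have h3 : Continuous fun s : ℝ => (u.1 + (s : ℂ) * u.2 / 2, (s : ℂ) * u.2) := by fun_prop
      exact h2.comp_of_eq h3.continuousAt rfl
    have h1' : ContinuousAt (fun s : ℝ => A (u.1 - s * u.2 / 2, s * u.2)) s := by
      have h2 : ContinuousAt A (u.1 - s * u.2 / 2, s * u.2) := (H.aA _ hm.m).continuousAt
      have h3 : Continuous fun s : ℝ => (u.1 - (s : ℂ) * u.2 / 2, (s : ℂ) * u.2) := by fun_prop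
      exact h2.comp_of_eq h3.continuousAt rfl
    exact ((h1.sub h1').div_const 2).continuousWithinAt
  · simp [dl]
  · intro s hs
    have hm := hu.scale hs
    by_cases h0 : ((s : ℂ) * u.2) = 0
    · have e : dl A (u.1, (s : ℂ) * u.2) = 0 := by
        rw [h0]; simp [dl]
      simp only [e, Complex.sin_zero, norm_zero]
      positivity
    · exact (two_vert hB H hm h0).2.2.2.2.2.2.2.1

theorem dl_small' (hB : Bo Λ F q Q V) (H : Lw F q Q V A₀ M ε r L A P θ) {u : ℂ × ℂ}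
    (hu : Mg L r u) : ‖dl A u‖ ≤ 1 / 50 := by
  have := dl_small hB H hu
  have hμ := H.μ1
  linarith

theorem snc_dl_ne (hB : Bo Λ F q Q V) (H : Lw F q Q V A₀ M ε r L A P θ) {u : ℂ × ℂ}
    (hu : Mg L r u) : NZ.snc (dl A u) ≠ 0 := by
  intro h
  have := snc_ne (z := dl A u) ((dl_small' hB H hu).trans (by norm_num))
  rw [h, norm_zero] at this
  linarith

/-- the two defining equations of the phase -/
theorem ph_eq (hB : Bo Λ F q Q V) (H : Lw F q Q V A₀ M ε r L A P θ) {u : ℂ × ℂ}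
    (hu : Mg L r u) :
    deriv F (θ u) * et Λ F q A P θ u = dl A u ∧ deriv q (θ u) * et Λ F q A P θ u = bt A P u ∧
    bt A P u * NZ.snc (dl A u) = (P (u.1 + u.2 / 2, u.2) - P (u.1 - u.2 / 2, u.2)) / 2 := by
  have hs := snc_dl_ne hB H hu
  have hc := hB.cne
  obtain ⟨-, l1, l2, l3⟩ := H.law u.1 u.2 hu.p hu.m
  have hb : bt A P u * NZ.snc (dl A u) =
      (P (u.1 + u.2 / 2, u.2) - P (u.1 - u.2 / 2, u.2)) / 2 := by
    rw [bt]; field_simp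
  have e0 : (u.1, u.2) = u := rfl
  rw [e0] at l1 l2 l3
  have e1 : (A (u.1 + u.2 / 2, u.2) - A (u.1 - u.2 / 2, u.2)) / 2 = dl A u := rfl
  rw [e1, ← NZ.mul_snc (dl A u)] at l3
  have h4 : deriv F (θ u) * bt A P u = deriv q (θ u) * dl A u := by
    have : NZ.snc (dl A u) * (deriv F (θ u) * bt A P u - deriv q (θ u) * dl A u) = 0 := by
      linear_combination deriv F (θ u) * hb + (1 / 2 : ℂ) * l3
    exact sub_eq_zero.1 ((mul_eq_zero.1 this).resolve_left hs)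
  have hw := hB.wr (θ u) (H.mV _ hu.z)
  rw [Wr] at hw
  refine ⟨?_, ?_, hb⟩
  · rw [et, ← mul_div_assoc, div_eq_iff hc]
    linear_combination dl A u * hw - deriv (deriv F) (θ u) * h4
  · rw [et, ← mul_div_assoc, div_eq_iff hc]
    linear_combination bt A P u * hw -
      (deriv (deriv q) (θ u) + q (θ u) * deriv F (θ u) ^ 2) * h4

/-- the outgoing line of the phase -/
theorem ph_out (hB : Bo Λ F q Q V) (H : Lw F q Q V A₀ M ε r L A P θ) {u : ℂ × ℂ}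
    (hu : Mg L r u) :
    aL F 1 (ph Λ F q A P θ u) = A (u.1 + u.2 / 2, u.2) ∧
    qL F q 1 (ph Λ F q A P θ u) = P (u.1 + u.2 / 2, u.2) := by
  obtain ⟨h1, h2, h3⟩ := ph_eq hB H hu
  obtain ⟨-, l1, l2, l3⟩ := H.law u.1 u.2 hu.p hu.m
  have e0 : (u.1, u.2) = u := rfl
  rw [e0] at l1 l2 l3
  have e1 : (A (u.1 + u.2 / 2, u.2) - A (u.1 - u.2 / 2, u.2)) / 2 = dl A u := rfl
  constructor
  · rw [aL]
    simp only [ph]
    rw [h1, one_mul, ← e1]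
    linear_combination (-(1 / 2 : ℂ)) * l1
  · rw [qL]
    simp only [ph]
    rw [h1]
    rw [e1] at l2
    linear_combination (-(1 / 2 : ℂ)) * l2 + NZ.snc (dl A u) * h2 + h3

theorem bound_et (hB : Bo Λ F q Q V) (H : Lw F q Q V A₀ M ε r L A P θ) {u : ℂ × ℂ}
    (hu : Mg L r u) : ‖et Λ F q A P θ u - u.2 / 2‖ ≤ 1 / 100 * ‖u.2‖ := by
  by_cases h0 : u.2 = 0
  · have e : et Λ F q A P θ u = 0 := by
      have h1 : dl A u = 0 := by rw [dl, h0]; simp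
      have h2 : bt A P u = 0 := by rw [bt, h0]; simp
      rw [et, h1, h2]; simp
    rw [e, h0]; simp
  obtain ⟨g0, g1, s2, hd, -, hne, hle, -, T2⟩ := two_vert hB H hu h0
  have hμ := H.μ1
  have hA0 := H.A0
  have hr0 : 0 ≤ r := by have := hu.1; linarith [norm_nonneg u.2]
  have hδ := dl_small hB H hu
  have hδ' := dl_small' hB H hu
  have hμ0 : 0 ≤ A₀ * (20 * r) := by positivity
  have hν := T2 (1 / 1000) (fun y hy => by
    have h1 : ‖dl A u - y‖ ≤ 21 / 1000 := by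
      refine (norm_sub_le _ _).trans ?_
      linarith
    refine (norm_cos_sub_one_le (r := 21 / 1000) (by norm_num) h1).trans ?_
    nlinarith [norm_nonneg (dl A u - y)]) (by norm_num)
  obtain ⟨h1, h2⟩ := ph_out hB H hu
  -- Gl1 at the vertex is c (η snc δ)
  have h3 : Gl1 F q (A (u.1 + u.2 / 2, u.2)) (P (u.1 + u.2 / 2, u.2)) (θ u) =
      (Λ : ℂ) ^ 3 * (et Λ F q A P θ u * NZ.snc (dl A u)) := by
    have h4 := Gi1_self (Φ := F) (q := q) (c := (Λ : ℂ) ^ 3) (v := ph Λ F q A P θ u)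
      (hB.wr _ (H.mV _ hu.z))
    have e5 : deriv F (ph Λ F q A P θ u).1 * (ph Λ F q A P θ u).2 = dl A u :=
      (ph_eq hB H hu).1
    rw [e5] at h4
    rw [← show Gi1 F q (ph Λ F q A P θ u) (ph Λ F q A P θ u).1 =
      Gl1 F q (A (u.1 + u.2 / 2, u.2)) (P (u.1 + u.2 / 2, u.2)) (θ u) from by
        rw [Gi1, Gl1, h1, h2]; rfl]
    exact h4
  have hc := hB.cne
  rw [h3, mul_div_cancel_left₀ _ hc] at hν
  set η := et Λ F q A P θ u with hη
  set w := u.2 with hw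
  set d := θ (u.1 + w, w) - θ u with hdd
  have hw0 := norm_nonneg w
  have hη0 := norm_nonneg η
  have h6 : ‖NZ.snc (dl A u) - 1‖ ≤ 1 / 1000 := by
    refine (norm_snc_sub_one_le (hδ'.trans (by norm_num))).trans ?_
    nlinarith [norm_nonneg (dl A u)]
  have h7 : ‖η * NZ.snc (dl A u) - w / 2‖ ≤ 3 / 1000 * ‖w‖ := by
    have e : η * NZ.snc (dl A u) - w / 2 = (η * NZ.snc (dl A u) - d / 2) + (d - w) / 2 := by ring
    rw [e]
    refine (norm_add_le _ _).trans ?_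
    have h8 : ‖(d - w) / 2‖ ≤ 1 / 2000 * ‖w‖ := by
      rw [norm_div]
      have e2 : ‖(2 : ℂ)‖ = 2 := by norm_num
      rw [e2]
      linarith
    have h9 : ‖d‖ * (1 / 1000 + 1 / 1000) ≤ 1001 / 1000 * ‖w‖ * (1 / 1000 + 1 / 1000) := by
      gcongr
    linarith
  have h10 : ‖η * (NZ.snc (dl A u) - 1)‖ ≤ ‖η‖ * (1 / 1000) := by
    rw [norm_mul]; gcongr
  have h11 : η - w / 2 = (η * NZ.snc (dl A u) - w / 2) - η * (NZ.snc (dl A u) - 1) := by ring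
  have h12 : ‖η - w / 2‖ ≤ 3 / 1000 * ‖w‖ + ‖η‖ * (1 / 1000) := by
    rw [h11]
    refine (norm_sub_le _ _).trans ?_
    linarith
  have h13 : ‖η‖ ≤ ‖η - w / 2‖ + ‖w‖ / 2 := by
    have := norm_add_le (η - w / 2) (w / 2)
    have e2 : ‖w / 2‖ = ‖w‖ / 2 := by
      rw [norm_div]; norm_num
    rw [sub_add_cancel, e2] at this
    exact this
  linarith

/-- **the recursion** -/
theorem ph_rec (hB : Bo Λ F q Q V) (H : Lw F q Q V A₀ M ε r L A P θ) {V' : Set ℂ} {A' B' M' : ℝ}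
    (T : Bx F q Q ((Λ : ℂ) ^ 3) V' A' B' M') {u : ℂ × ℂ} (hu : Mg L r u)
    (hu' : Mg L r (u.1 + u.2, u.2)) (h0 : u.2 ≠ 0) (ad : Ad V' A' B' M' (ph Λ F q A P θ u)) :
    ph Λ F q A P θ (u.1 + u.2, u.2) = SX F q ((Λ : ℂ) ^ 3) (ph Λ F q A P θ u) := by
  obtain ⟨g0, g1, s2, hd, -, hne, hle, -, -⟩ := two_vert hB H hu h0
  obtain ⟨o1, o2⟩ := ph_out hB H hu
  obtain ⟨q1, q2, q3⟩ := ph_eq hB H hu'
  have hη := bound_et hB H hu
  have hs1 := snc_dl_ne hB H hu'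
  obtain ⟨-, l1, l2, l3⟩ := H.law (u.1 + u.2) u.2 hu'.p hu'.m
  set y := ph Λ F q A P θ u with hy
  set w := u.2 with hw
  set x₁ := θ (u.1 + w, w) with hx₁
  have hw0 : 0 < ‖w‖ := norm_pos_iff.2 h0
  have y1 : y.1 = θ u := rfl
  have y2 : y.2 = et Λ F q A P θ u := rfl
  rw [← y2] at hη
  have hy2 : 49 / 100 * ‖w‖ ≤ ‖y.2‖ := by
    have h1 : ‖w / 2‖ ≤ ‖y.2‖ + ‖y.2 - w / 2‖ := by
      have := norm_sub_le y.2 (y.2 - w / 2)
      have e : y.2 - (y.2 - w / 2) = w / 2 := by ring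
      rwa [e] at this
    have e2 : ‖w / 2‖ = ‖w‖ / 2 := by rw [norm_div]; norm_num
    rw [e2] at h1
    linarith
  have hy0 : y.2 ≠ 0 := by
    intro h
    rw [h, norm_zero] at hy2
    linarith
  -- the root
  set s := (x₁ - y.1) / y.2 with hs
  have hsx : y.1 + y.2 * s = x₁ := by rw [hs]; field_simp; ring
  have hsm : s ∈ ball (2 : ℂ) (1 / 4) := by
    rw [mem_ball_iff_norm]
    have e : s - 2 = (x₁ - y.1 - 2 * y.2) / y.2 := by rw [hs]; field_simp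
    rw [e, norm_div, div_lt_iff₀ (norm_pos_iff.2 hy0)]
    have e3 : x₁ - y.1 - 2 * y.2 = (x₁ - y.1 - w) - 2 * (y.2 - w / 2) := by ring
    rw [e3]
    refine (norm_sub_le _ _).trans_lt ?_
    rw [norm_mul]
    have e4 : ‖(2 : ℂ)‖ = 2 := by norm_num
    rw [e4, y1]
    linarith
  have hGi : ∀ x, Gi F q y x = Gl F q (A (u.1 + w / 2, w)) (P (u.1 + w / 2, w)) x := by
    intro x
    rw [Gi, Gl, o1, o2]
  have hK : Kt F q ((Λ : ℂ) ^ 3) y s = 0 := by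
    rw [Kt, if_neg hy0, hsx, hGi, g1, zero_div]
  have hX := (Xr_spec T ad hy0).2.2.2 s hsm hK
  have hT1 : T1 F q ((Λ : ℂ) ^ 3) y = x₁ := by
    rw [T1, ← hX, hsx]
  -- the new lines
  have em : u.1 + w - w / 2 = u.1 + w / 2 := by ring
  have hdl : dl A (u.1 + w, w) =
      (A (u.1 + w + w / 2, w) - A (u.1 + w - w / 2, w)) / 2 := rfl
  have hD1 : D1 F q ((Λ : ℂ) ^ 3) y = -dl A (u.1 + w, w) := by
    rw [D1, hT1, o1, hdl]
    rw [em] at l1 ⊢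
    linear_combination (1 / 2 : ℂ) * l1
  have hB1 : B1 F q ((Λ : ℂ) ^ 3) y = bt A P (u.1 + w, w) := by
    rw [B1, hT1, hD1, o2, Complex.cos_neg, snc_neg, div_eq_iff hs1]
    have l2' : P (u.1 + w + w / 2, w) + P (u.1 + w - w / 2, w) =
      2 * q x₁ * cos (dl A (u.1 + w, w)) := l2
    rw [q3]
    simp only
    rw [em] at l2' ⊢
    linear_combination (-(1 / 2 : ℂ)) * l2'
  refine Prod.ext ?_ ?_
  · show x₁ = T1 F q ((Λ : ℂ) ^ 3) y
    rw [hT1]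
  · show et Λ F q A P θ (u.1 + w, w) = (-(D1 F q ((Λ : ℂ) ^ 3) y) *
      (deriv (deriv q) (T1 F q ((Λ : ℂ) ^ 3) y) + q (T1 F q ((Λ : ℂ) ^ 3) y) *
        deriv F (T1 F q ((Λ : ℂ) ^ 3) y) ^ 2)
      - deriv (deriv F) (T1 F q ((Λ : ℂ) ^ 3) y) * B1 F q ((Λ : ℂ) ^ 3) y) / (Λ : ℂ) ^ 3
    rw [hT1, hD1, hB1, neg_neg, et]

/-- analyticity of the phase -/
theorem ph_an (hB : Bo Λ F q Q V) (H : Lw F q Q V A₀ M ε r L A P θ) {u : ℂ × ℂ}
    (hu : Mg L r u) : AnalyticAt ℂ (ph Λ F q A P θ) u := by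
  have hθ := H.aθ _ hu.z
  have g1 : AnalyticAt ℂ (fun y : ℂ × ℂ => (y.1 + y.2 / 2, y.2)) u :=
    (analyticAt_fst.add (analyticAt_snd.div_const)).prod analyticAt_snd
  have g2 : AnalyticAt ℂ (fun y : ℂ × ℂ => (y.1 - y.2 / 2, y.2)) u :=
    (analyticAt_fst.sub (analyticAt_snd.div_const)).prod analyticAt_snd
  have a1 : AnalyticAt ℂ (fun y : ℂ × ℂ => A (y.1 + y.2 / 2, y.2)) u :=
    (H.aA _ hu.p).comp_of_eq g1 rfl
  have a2 : AnalyticAt ℂ (fun y : ℂ × ℂ => A (y.1 - y.2 / 2, y.2)) u :=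
    (H.aA _ hu.m).comp_of_eq g2 rfl
  have p1 : AnalyticAt ℂ (fun y : ℂ × ℂ => P (y.1 + y.2 / 2, y.2)) u :=
    (H.aP _ hu.p).comp_of_eq g1 rfl
  have p2 : AnalyticAt ℂ (fun y : ℂ × ℂ => P (y.1 - y.2 / 2, y.2)) u :=
    (H.aP _ hu.m).comp_of_eq g2 rfl
  have hdl : AnalyticAt ℂ (dl A) u := (a1.sub a2).div_const
  have hsnc : AnalyticAt ℂ (fun y => NZ.snc (dl A y)) u :=
    (NZ.snc_an _).comp hdl
  have hbt : AnalyticAt ℂ (bt A P) u :=
    ((p1.sub p2).div_const).div hsnc (snc_dl_ne hB H hu)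
  have hm : θ u ∈ V := H.mV _ hu.z
  have b1 : AnalyticAt ℂ (fun y => deriv (deriv q) (θ y)) u :=
    ((hB.aq hm).deriv.deriv).comp_of_eq hθ rfl
  have b2 : AnalyticAt ℂ (fun y => q (θ y)) u := (hB.aq hm).comp_of_eq hθ rfl
  have b3 : AnalyticAt ℂ (fun y => deriv F (θ y)) u :=
    ((hB.aF hm).deriv).comp_of_eq hθ rfl
  have b4 : AnalyticAt ℂ (fun y => deriv (deriv F) (θ y)) u :=
    ((hB.aF hm).deriv.deriv).comp_of_eq hθ rfl
  exact hθ.prod (((hdl.mul (b1.add (b2.mul (b3.pow 2)))).sub (b4.mul hbt)).div_const)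


section

variable {c : ℂ} {D r v K ε₁ : ℝ} {N A₀ M₀ : ℝ}

theorem bx_mk (hB : Bo Λ F q Q (ball c N)) (b : Nb c D r v K N A₀ M₀)
    (bA : ∀ z ∈ ball c N, ‖deriv F z‖ ≤ A₀) (bM : ∀ z ∈ ball c N, ‖Q z‖ ≤ M₀) :
    Bx F q Q ((Λ : ℂ) ^ 3) (ball c (3 * N / 4)) A₀ M₀ M₀ := by
  obtain ⟨K0, n1, n2, n3, hK, hKD, r0, D0, vD, rN⟩ := b.more
  have N0 := b.N0
  have M00 := b.M00
  have hsub : ball c (3 * N / 4) ⊆ ball c N := ball_subset_ball (by linarith)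
  refine ⟨hB.cne, isOpen_ball, fun x hx => hB.crv (hsub hx), fun x hx => hB.aQ (hsub hx),
    fun x hx => hB.gQ x (hsub hx), fun x hx => bA x (hsub hx), ?_, fun x hx => bM x (hsub hx)⟩
  intro z hz
  rw [mem_ball_iff_norm] at hz
  have h := Complex.norm_deriv_le_of_forall_mem_sphere_norm_le (c := z) (R := N / 8) (C := A₀)
    (f := deriv F) (by positivity) (DifferentiableOn.diffContOnCl_ball (U := ball c N) (hB.dF.deriv isOpen_ball) (by
      intro y hy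
      rw [mem_closedBall_iff_norm] at hy
      rw [mem_ball_iff_norm]
      have : ‖y - c‖ ≤ ‖y - z‖ + ‖z - c‖ := by
        have := norm_add_le (y - z) (z - c)
        rwa [sub_add_sub_cancel] at this
      linarith)) (by
      intro y hy
      rw [mem_sphere_iff_norm] at hy
      apply bA
      rw [mem_ball_iff_norm]
      have : ‖y - c‖ ≤ ‖y - z‖ + ‖z - c‖ := by
        have := norm_add_le (y - z) (z - c)
        rwa [sub_add_sub_cancel] at this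
      linarith)
  refine h.trans ?_
  rw [div_le_iff₀ (by positivity), b.AM]
  exact mul_le_mul_of_nonneg_left (by linarith) M00

theorem st_mk (hB : Bo Λ F q Q (ball c (3 * N / 4))) (b : Nb c D r v K N A₀ M₀) {A P θ : ℂ × ℂ → ℂ}
    (T : Bx F q Q ((Λ : ℂ) ^ 3) (ball c (3 * N / 4)) A₀ M₀ M₀)
    (hθ : ∀ t w : ℂ, (t, w) ∈ LoR c D r v K → ‖θ (t, w) - t‖ ≤ D)
    (hL : Lw F q Q (ball c (3 * N / 4)) A₀ M₀ (1 / 10000000) r (LoR c D r v K) A P θ) :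
    St F q ((Λ : ℂ) ^ 3) c.re (K * D / 4) (c.im - (v + 2) * D + 20 * r)
      (c.im - v * D - 20 * r) (W0 r) D (1 / 100) (ph Λ F q A P θ) := by
  have n := b.n
  refine ⟨fun u hu => ph_an hB hL (mg_LoR n hu), ?_, fun u hu => hθ u.1 u.2 (mg_LoR n hu).z,
    fun u hu => bound_et hB hL (mg_LoR n hu)⟩
  intro u hu hu'
  have m1 := mg_LoR n hu
  have m2 := mg_LoR n hu'
  have him : 0 < u.2.im := hu.2.2.2.1
  have h0 : u.2 ≠ 0 := by
    intro h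
    rw [h] at him
    simp at him
  refine ph_rec hB hL T m1 m2 h0 ?_
  have hη := bound_et hB hL m1
  have hw : ‖u.2‖ < 10 * r := hu.2.2.2.2.1
  have hη2 : ‖et Λ F q A P θ u‖ ≤ 10 * r := by
    have h1 := norm_add_le (et Λ F q A P θ u - u.2 / 2) (u.2 / 2)
    have e2 : ‖u.2 / 2‖ = ‖u.2‖ / 2 := by
      rw [norm_div]; norm_num
    rw [sub_add_cancel, e2] at h1
    have := norm_nonneg u.2
    linarith
  have A00 := b.A00
  have M00 := b.M00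
  refine ⟨?_, ?_, ?_⟩
  · intro z hz
    have e1 : (ph Λ F q A P θ u).1 = θ u := rfl
    have e2 : (ph Λ F q A P θ u).2 = et Λ F q A P θ u := rfl
    rw [mem_closedBall_iff_norm, e1, e2] at hz
    have h1 := hθ u.1 u.2 m1.z
    obtain ⟨k1, k2, k3, k4⟩ := m1.z
    exact near_c b k1 k2 k3 h1 (hz.trans (by linarith))
  · show A₀ * ‖et Λ F q A P θ u‖ < 1 / 100
    have h1 : A₀ * ‖et Λ F q A P θ u‖ ≤ A₀ * (10 * r) := by gcongr
    have := (size_A b).2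
    have h3 : 0 ≤ A₀ * (10 * r) := (mul_nonneg A00 (norm_nonneg _)).trans h1
    linarith
  · show (M₀ + M₀) * ‖et Λ F q A P θ u‖ ^ 2 < 1 / 10000
    have h1 : (M₀ + M₀) * ‖et Λ F q A P θ u‖ ^ 2 ≤ (M₀ + M₀) * (10 * r) ^ 2 := by gcongr
    have := (size_M b).2
    have h3 : 0 ≤ (M₀ + M₀) * (10 * r) ^ 2 := by positivity
    linarith

/-- **Row C** -/
theorem rowC : GR.RowC := by
  refine ⟨1 / 10000000, by norm_num, ?_⟩
  intro Λ b₀ F q Q hB₀ c D r v K hD hr hv hK hKr hsb hbd A P θ aA aP aθ hθ hA0 hev hlaw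
  have n : Nu c D r v K := ⟨hD, hr, hv, hK, hKr⟩
  have b := nb_mk n
  have K0 := n.r'.1
  have hB : Bo Λ F q Q (ball c (K * D)) :=
    ⟨hB₀.Λ0, isOpen_ball, hB₀.dF.mono hsb, hB₀.dq.mono hsb, hB₀.dQ.mono hsb,
      fun z hz => hB₀.wr z (hsb hz), fun z hz => hB₀.gQ z (hsb hz)⟩
  have hB' : Bo Λ F q Q (ball c (3 * (K * D) / 4)) := by
    refine hB.mono (ball_subset_ball ?_) isOpen_ball
    have : 0 < K * D := mul_pos K0 hD
    linarith
  have bA : ∀ z ∈ ball c (K * D), ‖deriv F z‖ ≤ 1 / 10000000 / (r * K) := by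
    intro z hz
    have h := (hbd z hz).1
    rw [le_div_iff₀ (by positivity)]
    linarith
  have bM : ∀ z ∈ ball c (K * D), ‖Q z‖ ≤ 1 / 10000000 / (r * K * D) := by
    intro z hz
    have h := (hbd z hz).2
    rw [le_div_iff₀ (by positivity)]
    linarith
  have T := bx_mk hB b bA bM
  have hL := lw_mk b bA bM aA aP aθ hθ hlaw
  have hS := st_mk hB' b T hθ hL
  have Z := sz_mk b
  obtain ⟨A', a1, a2⟩ := glue n T Z hS (f := A) (G := aL F 1)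
    (fun y hy => aL_an 1 (hB'.aF hy))
    (fun u hu => (ph_out hB' hL (mg_LoR n hu)).1.symm) aA (fun t w h => (hev t w h).1)
  obtain ⟨P', p1, p2⟩ := glue n T Z hS (f := P) (G := qL F q 1)
    (fun y hy => qL_an 1 (hB'.aF hy) (hB'.aq hy))
    (fun u hu => (ph_out hB' hL (mg_LoR n hu)).2.symm) aP (fun t w h => (hev t w h).2.1)
  exact ⟨A', P', a1, p1, fun u hu => ⟨a2 u hu, p2 u hu⟩⟩

end

end Vale.Agent.P097.H83.G
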